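import Vale.Agent.P011.E6.Ids

/-!
The slides: elementary transformations of the hermitian matrices of degree three over octonions.
-/

namespace Vale.Agent.P011LG

open Vale.Agent.P011.D4 Vale.Agent.P011.D4.Oct Vale.Agent.P011.E6 Vale.Agent.P011.E6.Alb

variable {F : Type} [Field F] {a b c : Fˣ}

/-- The group of the linear bijections which preserve the cubic norm. -/
def Inv (a b c : Fˣ) : Subgroup (Alb a b c ≃ₗ[F] Alb a b c) where
  carrier := {φ | ∀ x, cub (φ x) = cub x}
  mul_mem' := fun {φ ψ} h1 h2 x => by rw [LinearEquiv.mul_apply, h1, h2]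
  one_mem' := fun _ => rfl
  inv_mem' := fun {φ} h x => by
    have h1 : φ (φ⁻¹ x) = x := by rw [← LinearEquiv.mul_apply, mul_inv_cancel]; rfl
    rw [← h, h1]

theorem mem_Inv {φ : Alb a b c ≃ₗ[F] Alb a b c} : φ ∈ Inv a b c ↔ ∀ x, cub (φ x) = cub x :=
  Iff.rfl

/-- The six slides, as maps. -/
def sf (i : Fin 6) (u : Oct a b c) (x : Alb a b c) : Alb a b c :=
  match i with
  | 0 => ⟨x.d1 + bil u x.x3 + norm u * x.d2, x.d2, x.d3, x.x1, x.x2 + star (u * x.x1),
      x.x3 + x.d2 • u⟩
  | 1 => ⟨x.d1, x.d2 + bil u x.x3 + norm u * x.d1, x.d3, x.x1 + star (x.x2 * u), x.x2,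
      x.x3 + x.d1 • u⟩
  | 2 => ⟨x.d1, x.d2 + bil u x.x1 + norm u * x.d3, x.d3, x.x1 + x.d3 • u, x.x2,
      x.x3 + star (u * x.x2)⟩
  | 3 => ⟨x.d1, x.d2, x.d3 + bil u x.x1 + norm u * x.d2, x.x1 + x.d2 • u,
      x.x2 + star (x.x3 * u), x.x3⟩
  | 4 => ⟨x.d1, x.d2, x.d3 + bil u x.x2 + norm u * x.d1, x.x1 + star (u * x.x3),
      x.x2 + x.d1 • u, x.x3⟩
  | 5 => ⟨x.d1 + bil u x.x2 + norm u * x.d3, x.d2, x.d3, x.x1, x.x2 + x.d3 • u,
      x.x3 + star (x.x1 * u)⟩

theorem sf_add (i : Fin 6) (u : Oct a b c) (x y : Alb a b c) :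
    sf i u (x + y) = sf i u x + sf i u y := by
  fin_cases i <;> ext1 <;>
    simp only [sf, d1_add, d2_add, d3_add, x1_add, x2_add, x3_add, bil_add_right, mul_add, add_mul,
      star_add, add_smul] <;> first | ring1 | abel

theorem sf_smul (i : Fin 6) (u : Oct a b c) (t : F) (x : Alb a b c) :
    sf i u (t • x) = t • sf i u x := by
  fin_cases i <;> ext1 <;>
    simp only [sf, d1_smul, d2_smul, d3_smul, x1_smul, x2_smul, x3_smul, bil_smul_right,
      mul_smul_oct, smul_mul_oct, star_smul_oct, smul_add, mul_smul] <;> ring1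

theorem sf_zero (i : Fin 6) (x : Alb a b c) : sf i 0 x = x := by
  fin_cases i <;> ext1 <;> simp [sf]

theorem sf_sf (i : Fin 6) (u v : Oct a b c) (x : Alb a b c) :
    sf i (u + v) x = sf i u (sf i v x) := by
  fin_cases i <;> ext1 <;>
    simp only [sf, bil_add_left, bil_add_right, bil_smul_right, norm_add, mul_add, add_mul,
      star_add, smul_add] <;> first | ring1 | abel

/-- The six slides: `0` adds the second row to the first, `1` the first to the second, `2` the third
to the second, `3` the second to the third, `4` the first to the third, `5` the third to the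
first. -/
def sl (i : Fin 6) (u : Oct a b c) : Alb a b c ≃ₗ[F] Alb a b c where
  toFun := sf i u
  invFun := sf i (-u)
  left_inv x := by rw [← sf_sf, neg_add_cancel, sf_zero]
  right_inv x := by rw [← sf_sf, add_neg_cancel, sf_zero]
  map_add' := sf_add i u
  map_smul' := sf_smul i u

theorem sl_apply (i : Fin 6) (u : Oct a b c) (x : Alb a b c) : sl i u x = sf i u x := rfl

theorem sl_add (i : Fin 6) (u v : Oct a b c) : sl i (u + v) = sl i u * sl i v :=
  LinearEquiv.ext fun x => sf_sf i u v x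

theorem sl_zero (i : Fin 6) : sl i (0 : Oct a b c) = 1 := LinearEquiv.ext fun x => sf_zero i x

theorem cub_eq1 (x : Alb a b c) : cub x = x.d1 * x.d2 * x.d3 - x.d1 * norm x.x1 -
    x.d2 * norm x.x2 - x.d3 * norm x.x3 + bil (star (x.x2 * x.x3)) x.x1 := by rw [tri1, cub]

theorem cub_eq2 (x : Alb a b c) : cub x = x.d1 * x.d2 * x.d3 - x.d1 * norm x.x1 -
    x.d2 * norm x.x2 - x.d3 * norm x.x3 + bil (star (x.x3 * x.x1)) x.x2 := by rw [tri2, cub]

theorem cub_eq3 (x : Alb a b c) : cub x = x.d1 * x.d2 * x.d3 - x.d1 * norm x.x1 -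
    x.d2 * norm x.x2 - x.d3 * norm x.x3 + bil (star (x.x1 * x.x2)) x.x3 := by rw [tri3, cub]

theorem st_a (x y u : Oct a b c) :
    star (x * (y + star (u * x))) = star (x * y) + norm x • u := by
  rw [mul_add, star_mul u x, ← star_star x, star_star (star x), star_mul_mul, star_star, star_add,
    star_smul_oct, star_star, Oct.norm_star]

theorem st_b (x y u : Oct a b c) :
    star ((y + star (x * u)) * x) = star (y * x) + norm x • u := by
  rw [add_mul, star_mul x u, mul_star_mul', star_add, star_smul_oct, star_star]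

theorem tr_a (x y u : Oct a b c) : bil y (star (u * x)) = bil (star (x * y)) u := by
  rw [tri2', tri3]

theorem tr_b (x y u : Oct a b c) : bil y (star (x * u)) = bil (star (y * x)) u := by
  rw [tri1', tri3]

theorem cub_sf (i : Fin 6) (u : Oct a b c) (x : Alb a b c) : cub (sf i u x) = cub x := by
  fin_cases i
  · rw [cub_eq3, cub_eq3]
    simp only [sf, st_a, norm_add, tr_a, Oct.norm_star, Oct.norm_mul, Oct.norm_smul, bil_add_left,
      bil_add_right, bil_smul_left, bil_smul_right, bil_self, bil_comm x.x3 u]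
    ring
  · rw [cub_eq3, cub_eq3]
    simp only [sf, st_b, norm_add, tr_b x.x2, Oct.norm_star, Oct.norm_mul, Oct.norm_smul, bil_add_left,
      bil_add_right, bil_smul_left, bil_smul_right, bil_self, bil_comm x.x3 u]
    ring
  · rw [cub_eq1, cub_eq1]
    simp only [sf, st_a, norm_add, tr_a, Oct.norm_star, Oct.norm_mul, Oct.norm_smul, bil_add_left,
      bil_add_right, bil_smul_left, bil_smul_right, bil_self, bil_comm x.x1 u]
    ring
  · rw [cub_eq1, cub_eq1]
    simp only [sf, st_b, norm_add, tr_b x.x3, Oct.norm_star, Oct.norm_mul, Oct.norm_smul, bil_add_left,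
      bil_add_right, bil_smul_left, bil_smul_right, bil_self, bil_comm x.x1 u]
    ring
  · rw [cub_eq2, cub_eq2]
    simp only [sf, st_a, norm_add, tr_a, Oct.norm_star, Oct.norm_mul, Oct.norm_smul, bil_add_left,
      bil_add_right, bil_smul_left, bil_smul_right, bil_self, bil_comm x.x2 u]
    ring
  · rw [cub_eq2, cub_eq2]
    simp only [sf, st_b, norm_add, tr_b x.x1, Oct.norm_star, Oct.norm_mul, Oct.norm_smul, bil_add_left,
      bil_add_right, bil_smul_left, bil_smul_right, bil_self, bil_comm x.x2 u]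
    ring

theorem sl_mem (i : Fin 6) (u : Oct a b c) : sl i u ∈ Inv a b c := cub_sf i u

/-- The group generated by the slides. -/
def El (a b c : Fˣ) : Subgroup (Alb a b c ≃ₗ[F] Alb a b c) :=
  Subgroup.closure {φ | ∃ i u, φ = sl i u}

theorem sl_El (i : Fin 6) (u : Oct a b c) : sl i u ∈ El a b c :=
  Subgroup.subset_closure ⟨i, u, rfl⟩

theorem El_le : El a b c ≤ Inv a b c :=
  (Subgroup.closure_le _).2 fun _ ⟨i, u, h⟩ => h ▸ sl_mem i u

section sim

variable [NeZero (2 : F)] {a' b' c' : Fˣ}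

omit [NeZero (2 : F)] in
theorem two_tf_adj (x y : Alb a b c) :
    2 * tf (adj x) y = cub (x + y) - cub (x + (-1 : F) • y) - 2 * cub y := by
  rw [cub_add, cub_add, adj_smul, cub_smul, tf_smul_right, tf_smul_right]
  ring

/-- Norm similarities and the adjoint. -/
theorem tf_adj_sim (φ : Alb a b c →ₗ[F] Alb a' b' c') {μ : F} (h : ∀ x, cub (φ x) = μ * cub x)
    (x y : Alb a b c) : tf (adj (φ x)) (φ y) = μ * tf (adj x) y := by
  apply mul_left_cancel₀ (NeZero.ne (2 : F))
  rw [two_tf_adj, ← map_smul, ← map_add, ← map_add, h, h, h]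
  linear_combination (-μ) * two_tf_adj x y

theorem tf_cross_sim (φ : Alb a b c →ₗ[F] Alb a' b' c') {μ : F} (h : ∀ x, cub (φ x) = μ * cub x)
    (x y z : Alb a b c) : tf (cross (φ x) (φ y)) (φ z) = μ * tf (cross x y) z := by
  have h1 := tf_adj_sim φ h (x + y) z
  rw [map_add, adj_add, adj_add, tf_add_left, tf_add_left, tf_add_left, tf_add_left,
    tf_adj_sim φ h, tf_adj_sim φ h] at h1
  linear_combination h1

theorem tf_adj_inv {φ : Alb a b c ≃ₗ[F] Alb a b c} (h : φ ∈ Inv a b c) (x y : Alb a b c) :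
    tf (adj (φ x)) (φ y) = tf (adj x) y := by
  have := tf_adj_sim (μ := 1) φ.toLinearMap (fun x => by rw [one_mul]; exact h x) x y
  rwa [one_mul] at this

theorem tf_cross_inv {φ : Alb a b c ≃ₗ[F] Alb a b c} (h : φ ∈ Inv a b c) (x y z : Alb a b c) :
    tf (cross (φ x) (φ y)) (φ z) = tf (cross x y) z := by
  have := tf_cross_sim (μ := 1) φ.toLinearMap (fun x => by rw [one_mul]; exact h x) x y z
  rwa [one_mul] at this

theorem adj_inv_eq_zero {φ : Alb a b c ≃ₗ[F] Alb a b c} (h : φ ∈ Inv a b c) {x : Alb a b c}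
    (hx : adj x = 0) : adj (φ x) = 0 := by
  refine eq_zero_of_tf fun y => ?_
  obtain ⟨z, rfl⟩ := φ.surjective y
  rw [tf_adj_inv h, hx, tf_zero_left]

theorem cross_inv_ne_zero {φ : Alb a b c ≃ₗ[F] Alb a b c} (h : φ ∈ Inv a b c) {x y : Alb a b c}
    (hx : cross x y ≠ 0) : cross (φ x) (φ y) ≠ 0 := fun h0 =>
  hx (eq_zero_of_tf fun z => by rw [← tf_cross_inv h, h0, tf_zero_left])

theorem cub_of_adj {x : Alb a b c} (hx : adj x = 0) : cub x = 0 := by
  have := cub_adj x
  rw [hx, cub_zero] at this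
  exact pow_eq_zero_iff two_ne_zero |>.1 this.symm

/-- The norm of a sum of three singular elements. -/
theorem cub_frame {x y z : Alb a b c} (hx : adj x = 0) (hy : adj y = 0) (hz : adj z = 0) :
    cub (x + y + z) = tf (cross x y) z := by
  rw [cub_add, cub_add, adj_add, hx, hy, hz, cub_of_adj hx, cub_of_adj hy, cub_of_adj hz]
  simp

end sim

end Vale.Agent.P011LG
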