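import Vale.Agent.P011LG.Dual
import Vale.Agent.P011LT.Basic

/-!
The isometry between the cubic form on triples of matrices and the norm of the hermitian matrices
over split octonions (Zorn's vector matrices).
-/

namespace Vale.Agent.P011LG

open Vale.Agent.P011.D4 Vale.Agent.P011.D4.Oct Vale.Agent.P011.E6 Vale.Agent.P011.E6.Alb Matrix

variable {F : Type} [Field F] (a b c r : Fˣ)

/-- Zorn's vector matrices as octonions, for `c = r * r`. -/
def zo (α β v0 v1 v2 w0 w1 w2 : F) : Oct a b c :=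
  ⟨⟨(α + β) / 2, (v0 + w0 / a) / 2, (v1 + w1 / b) / 2, (w2 - v2 / (a * b)) / 2⟩,
    ⟨(α - β) / (2 * r), (w0 / a - v0) / (2 * r), (w1 / b - v1) / (2 * r),
      (w2 + v2 / (a * b)) / (2 * r)⟩⟩

variable [NeZero (2 : F)]

theorem norm_zo (hr : c = r * r) (α β v0 v1 v2 w0 w1 w2 : F) : norm (zo a b c r α β v0 v1 v2 w0 w1 w2) =
    α * β - (v0 * w0 + v1 * w1 + v2 * w2) := by
  have h2 : (2 : F) ≠ 0 := NeZero.ne 2
  subst hr
  simp only [Oct.norm, P011.MPQ.nrd, zo, Units.val_mul]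
  field_simp
  ring

theorem bil_zo (hr : c = r * r) (α β v0 v1 v2 w0 w1 w2 α' β' v0' v1' v2' w0' w1' w2' : F) :
    bil (zo a b c r α β v0 v1 v2 w0 w1 w2) (zo a b c r α' β' v0' v1' v2' w0' w1' w2') =
    α * β' + β * α' - (v0 * w0' + v1 * w1' + v2 * w2' + (w0 * v0' + w1 * v1' + w2 * v2')) := by
  have h2 : (2 : F) ≠ 0 := NeZero.ne 2
  subst hr
  simp only [bil_eq, zo, Units.val_mul]
  field_simp
  ring

omit [NeZero (2 : F)] in
theorem star_zo (α β v0 v1 v2 w0 w1 w2 : F) : star (zo a b c r α β v0 v1 v2 w0 w1 w2) =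
    zo a b c r β α (-v0) (-v1) (-v2) (-w0) (-w1) (-w2) := by
  apply ext8 <;> simp [zo] <;> ring

theorem zo_mul (hr : c = r * r) (α β v0 v1 v2 w0 w1 w2 α' β' v0' v1' v2' w0' w1' w2' : F) :
    zo a b c r α β v0 v1 v2 w0 w1 w2 * zo a b c r α' β' v0' v1' v2' w0' w1' w2' =
    zo a b c r (α * α' + (v0 * w0' + v1 * w1' + v2 * w2')) (β * β' + (w0 * v0' + w1 * v1' + w2 * v2'))
      (α * v0' + β' * v0 - (w1 * w2' - w2 * w1')) (α * v1' + β' * v1 - (w2 * w0' - w0 * w2'))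
      (α * v2' + β' * v2 - (w0 * w1' - w1 * w0')) (α' * w0 + β * w0' + (v1 * v2' - v2 * v1'))
      (α' * w1 + β * w1' + (v2 * v0' - v0 * v2')) (α' * w2 + β * w2' + (v0 * v1' - v1 * v0')) := by
  have h2 : (2 : F) ≠ 0 := NeZero.ne 2
  subst hr
  apply ext8 <;> simp [zo] <;> field_simp <;> ring

theorem zo_eta (y : Oct a b c) : zo a b c r (y.fst.re + r * y.snd.re)
    (y.fst.re - r * y.snd.re) (y.fst.imI - r * y.snd.imI) (y.fst.imJ - r * y.snd.imJ)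
    (-(a * b) * (y.fst.imK - r * y.snd.imK)) (- -(a * (y.fst.imI + r * y.snd.imI)))
    (- -(b * (y.fst.imJ + r * y.snd.imJ))) (- -(y.fst.imK + r * y.snd.imK)) = y := by
  have h2 : (2 : F) ≠ 0 := NeZero.ne 2
  apply ext8 <;> simp only [zo] <;> field_simp <;> ring

omit [NeZero (2 : F)] in
theorem zo_add (α β v0 v1 v2 w0 w1 w2 α' β' v0' v1' v2' w0' w1' w2' : F) :
    zo a b c r (α + α') (β + β') (v0 + v0') (v1 + v1') (v2 + v2') (-(w0 + w0')) (-(w1 + w1'))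
      (-(w2 + w2')) = zo a b c r α β v0 v1 v2 (-w0) (-w1) (-w2) +
      zo a b c r α' β' v0' v1' v2' (-w0') (-w1') (-w2') := by
  apply ext8 <;> simp [zo] <;> ring

omit [NeZero (2 : F)] in
theorem zo_smul (t α β v0 v1 v2 w0 w1 w2 : F) :
    zo a b c r (t * α) (t * β) (t * v0) (t * v1) (t * v2) (-(t * w0)) (-(t * w1))
      (-(t * w2)) = t • zo a b c r α β v0 v1 v2 (-w0) (-w1) (-w2) := by
  apply ext8 <;> simp [zo] <;> ring

/-- The inverse map. -/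
def pg (y : Alb a b c) (e : Fin 3 × Fin 3 × Fin 3) : F :=
    ![![![y.d1, y.x3.fst.re - r * y.x3.snd.re, y.x2.fst.re + r * y.x2.snd.re],
        ![y.x3.fst.re + r * y.x3.snd.re, y.d2, y.x1.fst.re - r * y.x1.snd.re],
        ![y.x2.fst.re - r * y.x2.snd.re, y.x1.fst.re + r * y.x1.snd.re, y.d3]],
      ![![y.x1.fst.imI - r * y.x1.snd.imI, y.x1.fst.imJ - r * y.x1.snd.imJ,
          -(a * b) * (y.x1.fst.imK - r * y.x1.snd.imK)],
        ![y.x2.fst.imI - r * y.x2.snd.imI, y.x2.fst.imJ - r * y.x2.snd.imJ,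
          -(a * b) * (y.x2.fst.imK - r * y.x2.snd.imK)],
        ![y.x3.fst.imI - r * y.x3.snd.imI, y.x3.fst.imJ - r * y.x3.snd.imJ,
          -(a * b) * (y.x3.fst.imK - r * y.x3.snd.imK)]],
      ![![-(a * (y.x1.fst.imI + r * y.x1.snd.imI)), -(a * (y.x2.fst.imI + r * y.x2.snd.imI)),
          -(a * (y.x3.fst.imI + r * y.x3.snd.imI))],
        ![-(b * (y.x1.fst.imJ + r * y.x1.snd.imJ)), -(b * (y.x2.fst.imJ + r * y.x2.snd.imJ)),
          -(b * (y.x3.fst.imJ + r * y.x3.snd.imJ))],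
        ![-(y.x1.fst.imK + r * y.x1.snd.imK), -(y.x2.fst.imK + r * y.x2.snd.imK),
          -(y.x3.fst.imK + r * y.x3.snd.imK)]]] e.1 e.2.1 e.2.2

/-- The direct map. -/
def pf (x : Fin 3 × Fin 3 × Fin 3 → F) : Alb a b c :=
  ⟨x (0, 0, 0), x (0, 1, 1), x (0, 2, 2),
    zo a b c r (x (0, 2, 1)) (x (0, 1, 2)) (x (1, 0, 0)) (x (1, 0, 1)) (x (1, 0, 2))
      (-x (2, 0, 0)) (-x (2, 1, 0)) (-x (2, 2, 0)),
    zo a b c r (x (0, 0, 2)) (x (0, 2, 0)) (x (1, 1, 0)) (x (1, 1, 1)) (x (1, 1, 2))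
      (-x (2, 0, 1)) (-x (2, 1, 1)) (-x (2, 2, 1)),
    zo a b c r (x (0, 1, 0)) (x (0, 0, 1)) (x (1, 2, 0)) (x (1, 2, 1)) (x (1, 2, 2))
      (-x (2, 0, 2)) (-x (2, 1, 2)) (-x (2, 2, 2))⟩

theorem pg_pf (x : Fin 3 × Fin 3 × Fin 3 → F) : pg a b c r (pf a b c r x) = x := by
  have h2 : (2 : F) ≠ 0 := NeZero.ne 2
  funext ⟨l, i, j⟩
  fin_cases l <;> fin_cases i <;> fin_cases j <;> simp [pg, pf, zo] <;> field_simp <;> ring

/-- The isometry. -/
def Psi : (Fin 3 × Fin 3 × Fin 3 → F) ≃ₗ[F] Alb a b c where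
  toFun := pf a b c r
  invFun := pg a b c r
  left_inv := pg_pf a b c r
  right_inv y := Alb.ext rfl rfl rfl (zo_eta a b c r y.x1) (zo_eta a b c r y.x2) (zo_eta a b c r y.x3)
  map_add' _ _ := Alb.ext rfl rfl rfl (zo_add ..) (zo_add ..) (zo_add ..)
  map_smul' _ _ := Alb.ext rfl rfl rfl (zo_smul ..) (zo_smul ..) (zo_smul ..)

theorem Psi_apply (x : Fin 3 × Fin 3 × Fin 3 → F) : Psi a b c r x =
    ⟨x (0, 0, 0), x (0, 1, 1), x (0, 2, 2),
    zo a b c r (x (0, 2, 1)) (x (0, 1, 2)) (x (1, 0, 0)) (x (1, 0, 1)) (x (1, 0, 2))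
      (-x (2, 0, 0)) (-x (2, 1, 0)) (-x (2, 2, 0)),
    zo a b c r (x (0, 0, 2)) (x (0, 2, 0)) (x (1, 1, 0)) (x (1, 1, 1)) (x (1, 1, 2))
      (-x (2, 0, 1)) (-x (2, 1, 1)) (-x (2, 2, 1)),
    zo a b c r (x (0, 1, 0)) (x (0, 0, 1)) (x (1, 2, 0)) (x (1, 2, 1)) (x (1, 2, 2))
      (-x (2, 0, 2)) (-x (2, 1, 2)) (-x (2, 2, 2))⟩ := rfl

theorem cub_Psi (hr : c = r * r) (x : Fin 3 × Fin 3 × Fin 3 → F) : cub (Psi a b c r x) = P011L.cub x := by
  rw [cub_eq3, Psi_apply]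
  simp only [norm_zo a b c r hr, zo_mul a b c r hr, star_zo, bil_zo a b c r hr, P011L.cub,
    det_fin_three, trace_fin_three,
    mul_apply, Fin.sum_univ_three, of_apply]
  ring

/-- The involution which relates the trace form and the dot product. -/
def tau (e : Fin 3 × Fin 3 × Fin 3) : Fin 3 × Fin 3 × Fin 3 := (-e.1, e.2.2, e.2.1)

theorem tau_tau (e : Fin 3 × Fin 3 × Fin 3) : tau (tau e) = e := by simp [tau]

theorem tf_Psi (hr : c = r * r) (x y : Fin 3 × Fin 3 × Fin 3 → F) :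
    tf (Psi a b c r x) (Psi a b c r y) = x ⬝ᵥ (y ∘ tau) := by
  have e1 : -(1 : Fin 3) = 2 := rfl
  have e2 : -(2 : Fin 3) = 1 := rfl
  simp only [Psi_apply, tf, bil_zo a b c r hr, dotProduct,
    Fintype.sum_prod_type, Fin.sum_univ_three,
    Function.comp_apply, tau, neg_zero, e1, e2]
  ring

omit [NeZero (2 : F)] in
theorem cub_tau (x : Fin 3 × Fin 3 × Fin 3 → F) : P011L.cub (x ∘ tau) = P011L.cub x := by
  have e1 : -(1 : Fin 3) = 2 := rfl
  have e2 : -(2 : Fin 3) = 1 := rfl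
  simp only [P011L.cub, det_fin_three, trace_fin_three, mul_apply, Fin.sum_univ_three, of_apply,
    Function.comp_apply, tau, neg_zero, e1, e2]
  ring

omit [NeZero (2 : F)] in
theorem zo_zero : zo a b c r 0 0 0 0 0 0 0 0 = 0 := by
  apply ext8 <;> simp [zo]

theorem Psi_single : Psi a b c r (Pi.single (0, 0, 0) 1) = e1 ∧
    Psi a b c r (Pi.single (0, 1, 1) 1) = e2 ∧ Psi a b c r (Pi.single (0, 2, 2) 1) = e3 := by
  refine ⟨?_, ?_, ?_⟩ <;> rw [Psi_apply] <;> simp [e1, e2, e3, zo_zero]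

/-- The matrices as linear bijections of the hermitian matrices. -/
def toA : GL (Fin 3 × Fin 3 × Fin 3) F ≃* (Alb a b c ≃ₗ[F] Alb a b c) :=
  GeneralLinearGroup.toLin.trans ((LinearMap.GeneralLinearGroup.congrLinearEquiv (Psi a b c r)).trans
    (LinearMap.GeneralLinearGroup.generalLinearEquiv F _))

theorem toA_apply (g : GL (Fin 3 × Fin 3 × Fin 3) F) (x : Fin 3 × Fin 3 × Fin 3 → F) :
    toA a b c r g (Psi a b c r x) = Psi a b c r (g.1 *ᵥ x) := by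
  change Psi a b c r (g.1 *ᵥ ((Psi a b c r).symm (Psi a b c r x))) = _
  rw [LinearEquiv.symm_apply_apply]

theorem toA_mem (hr : c = r * r) {g : GL (Fin 3 × Fin 3 × Fin 3) F} :
    toA a b c r g ∈ Inv a b c ↔ g ∈ P011L.SE F := by
  rw [P011LT.mem_SE, mem_Inv]
  refine ⟨fun h x => ?_, fun h x => ?_⟩
  · rw [← cub_Psi a b c r hr, ← toA_apply, h, cub_Psi a b c r hr]
  · obtain ⟨y, rfl⟩ := (Psi a b c r).surjective x
    rw [toA_apply, cub_Psi a b c r hr, h, cub_Psi a b c r hr]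

theorem toA_mem_SD (hr : c = r * r) {g : GL (Fin 3 × Fin 3 × Fin 3) F} : g ∈ P011L.SD F ↔
    toA a b c r g ∈ Inv a b c ∧ toA a b c r g e1 = e1 ∧ toA a b c r g e2 = e2 ∧
      toA a b c r g e3 = e3 := by
  obtain ⟨h1, h2, h3⟩ := Psi_single a b c r
  rw [P011LT.mem_SD, toA_mem a b c r hr, ← h1, ← h2, ← h3, toA_apply, toA_apply, toA_apply]
  simp only [(Psi a b c r).injective.eq_iff, Fin.forall_fin_succ, IsEmpty.forall_iff, and_true]
  rfl

/-- The group generated by the one-parameter subgroups of `H`. -/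
def OneP (K : Type) [Field K] {G : Type} [Group G] (H : Subgroup G) : Subgroup G :=
  Subgroup.closure {g | ∃ x : K → G, (∀ s, x s ∈ H) ∧ (∀ s t, x (s + t) = x s * x t) ∧ x 1 = g}

theorem El_OneP (hr : c = r * r) {φ : Alb a b c ≃ₗ[F] Alb a b c} (h : φ ∈ El a b c) :
    (toA a b c r).symm φ ∈ OneP F (P011L.SE F) := by
  induction h using Subgroup.closure_induction with
  | mem x hx =>
    obtain ⟨i, u, rfl⟩ := hx
    refine Subgroup.subset_closure ⟨fun s => (toA a b c r).symm (sl i (s • u)), fun s => ?_,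
      fun s t => ?_, by simp only [one_smul]⟩
    · rw [← toA_mem a b c r hr, MulEquiv.apply_symm_apply]
      exact sl_mem _ _
    · simp only [add_smul, sl_add, map_mul]
  | one => rw [map_one]; exact one_mem _
  | mul x y _ _ h1 h2 => rw [map_mul]; exact mul_mem h1 h2
  | inv x _ h1 => rw [map_inv]; exact inv_mem h1

omit a b c r in
/-- Every element of `SE` is a product of elements of one-parameter subgroups and of an element of
`SD`. -/
theorem SE_eq (hsq : ∀ t : F, IsSquare t) {g : GL (Fin 3 × Fin 3 × Fin 3) F}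
    (hg : g ∈ P011L.SE F) : ∃ u ∈ OneP F (P011L.SE F), ∃ d ∈ P011L.SD F, g = u * d := by
  obtain ⟨φ, h1, d, h2, h3, h4, h5, h6⟩ := inv_eq hsq ((toA_mem 1 1 1 1 (mul_one 1).symm).2 hg)
  refine ⟨_, El_OneP 1 1 1 1 (mul_one 1).symm h1, (toA 1 1 1 1).symm d,
    (toA_mem_SD 1 1 1 1 (mul_one 1).symm).2 ?_, ?_⟩
  · rw [MulEquiv.apply_symm_apply]
    exact ⟨h2, h3, h4, h5⟩
  · rw [← map_mul, ← h6, MulEquiv.symm_apply_apply]

/-- The dual map in the matrix model. -/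
theorem dl_toA (hr : c = r * r) {g g' : GL (Fin 3 × Fin 3 × Fin 3) F} :
    Dl (toA a b c r g) (toA a b c r g') ↔
      ∀ x y, (g.1 *ᵥ x) ⬝ᵥ ((g'.1 *ᵥ y) ∘ tau) = x ⬝ᵥ (y ∘ tau) := by
  refine ⟨fun h x y => ?_, fun h x y => ?_⟩
  · rw [← tf_Psi a b c r hr, ← toA_apply, ← toA_apply, h, tf_Psi a b c r hr]
  · obtain ⟨x, rfl⟩ := (Psi a b c r).surjective x
    obtain ⟨y, rfl⟩ := (Psi a b c r).surjective y
    rw [toA_apply, toA_apply, tf_Psi a b c r hr, h, tf_Psi a b c r hr]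

omit a b c r in
/-- `SE` is stable under the inverse transpose. -/
theorem SE_invT (hsq : ∀ t : F, IsSquare t) {g : GL (Fin 3 × Fin 3 × Fin 3) F}
    (hg : g ∈ P011L.SE F) : ∃ g' ∈ P011L.SE F, g'.1 = (g⁻¹).1ᵀ := by
  have h1 : (1 : Fˣ) = 1 * 1 := (mul_one 1).symm
  obtain ⟨φ, h2, h3⟩ := exists_dual hsq ((toA_mem 1 1 1 1 h1).2 hg)
  obtain ⟨k, rfl⟩ := (toA 1 1 1 1).surjective φ
  have h4 := P011LT.mem_SE.1 ((toA_mem 1 1 1 1 h1).1 h2)
  have h5 := (dl_toA 1 1 1 1 h1).1 h3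
  have h6 : ∀ y, (g⁻¹).1ᵀ *ᵥ (y ∘ tau) = (k.1 *ᵥ y) ∘ tau := fun y => by
    refine dotProduct_eq _ _ fun z => ?_
    have := h5 ((g⁻¹).1 *ᵥ z) y
    rw [mulVec_mulVec, ← Units.val_mul, mul_inv_cancel, Units.val_one, one_mulVec] at this
    rw [dotProduct_comm _ z, dotProduct_comm _ z, this, dotProduct_mulVec, vecMul_transpose]
  refine ⟨⟨(g⁻¹).1ᵀ, g.1ᵀ, ?_, ?_⟩, P011LT.mem_SE.2 fun x => ?_, rfl⟩
  · rw [← transpose_mul, ← Units.val_mul, mul_inv_cancel, Units.val_one, transpose_one]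
  · rw [← transpose_mul, ← Units.val_mul, inv_mul_cancel, Units.val_one, transpose_one]
  · have h7 : x = (x ∘ tau) ∘ tau := funext fun e => by simp [tau_tau]
    change P011L.cub ((g⁻¹).1ᵀ *ᵥ x) = _
    rw [h7, h6, cub_tau, h4, cub_tau (x ∘ tau)]

end Vale.Agent.P011LG
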