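import Vale.Agent.P011LG.Trans

/-!
The dual maps with respect to the trace form, and the opposite pairs.
-/

namespace Vale.Agent.P011LG

open Vale.Agent.P011.D4 Vale.Agent.P011.D4.Oct Vale.Agent.P011.E6 Vale.Agent.P011.E6.Alb

variable {F : Type} [Field F] {a b c : Fˣ}

/-- `g'` is the inverse of the adjoint of `g` for the trace form. -/
def Dl (g g' : Alb a b c ≃ₗ[F] Alb a b c) : Prop := ∀ x y, tf (g x) (g' y) = tf x y

theorem Dl.symm {g g' : Alb a b c ≃ₗ[F] Alb a b c} (h : Dl g g') : Dl g' g := fun x y => by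
  rw [tf_comm, h, tf_comm]

theorem Dl.mul {g g' k k' : Alb a b c ≃ₗ[F] Alb a b c} (h : Dl g g') (h' : Dl k k') :
    Dl (g * k) (g' * k') := fun x y => by
  rw [LinearEquiv.mul_apply, LinearEquiv.mul_apply, h, h']

theorem Dl.inv {g g' : Alb a b c ≃ₗ[F] Alb a b c} (h : Dl g g') : Dl g⁻¹ g'⁻¹ := fun x y => by
  rw [← h, ← LinearEquiv.mul_apply, ← LinearEquiv.mul_apply, mul_inv_cancel, mul_inv_cancel]
  rfl

theorem tf_sl0 (u : Oct a b c) (x y : Alb a b c) : tf (sl 0 u x) y = tf x (sl 1 u y) := by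
  simp only [sl_apply, sf, tf, bil_add_left, bil_add_right, bil_smul_left, bil_smul_right, tri1',
    tri2, bil_comm x.x3 u]
  ring

theorem tf_sl2 (u : Oct a b c) (x y : Alb a b c) : tf (sl 2 u x) y = tf x (sl 3 u y) := by
  simp only [sl_apply, sf, tf, bil_add_left, bil_add_right, bil_smul_left, bil_smul_right, tri1',
    tri2, bil_comm x.x1 u]
  ring

theorem tf_sl4 (u : Oct a b c) (x y : Alb a b c) : tf (sl 4 u x) y = tf x (sl 5 u y) := by
  simp only [sl_apply, sf, tf, bil_add_left, bil_add_right, bil_smul_left, bil_smul_right, tri1',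
    tri2, bil_comm x.x2 u]
  ring

theorem sl_neg (i : Fin 6) (u : Oct a b c) (x : Alb a b c) : sl i u (sl i (-u) x) = x := by
  rw [← LinearEquiv.mul_apply, ← sl_add, add_neg_cancel, sl_zero]; rfl

theorem dl0 (u : Oct a b c) : Dl (sl 0 u) (sl 1 (-u)) := fun x y => by rw [tf_sl0, sl_neg]
theorem dl2 (u : Oct a b c) : Dl (sl 2 u) (sl 3 (-u)) := fun x y => by rw [tf_sl2, sl_neg]
theorem dl4 (u : Oct a b c) : Dl (sl 4 u) (sl 5 (-u)) := fun x y => by rw [tf_sl4, sl_neg]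
theorem dl1 (u : Oct a b c) : Dl (sl 1 u) (sl 0 (-u)) := by simpa using (dl0 (-u)).symm
theorem dl3 (u : Oct a b c) : Dl (sl 3 u) (sl 2 (-u)) := by simpa using (dl2 (-u)).symm
theorem dl5 (u : Oct a b c) : Dl (sl 5 u) (sl 4 (-u)) := by simpa using (dl4 (-u)).symm

theorem El_dual {g : Alb a b c ≃ₗ[F] Alb a b c} (hg : g ∈ El a b c) : ∃ g' ∈ El a b c, Dl g g' := by
  induction hg using Subgroup.closure_induction with
  | mem x hx =>
    obtain ⟨i, u, rfl⟩ := hx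
    fin_cases i
    exacts [⟨_, sl_El _ _, dl0 u⟩, ⟨_, sl_El _ _, dl1 u⟩, ⟨_, sl_El _ _, dl2 u⟩,
      ⟨_, sl_El _ _, dl3 u⟩, ⟨_, sl_El _ _, dl4 u⟩, ⟨_, sl_El _ _, dl5 u⟩]
  | one => exact ⟨1, one_mem _, fun _ _ => rfl⟩
  | mul x y _ _ h1 h2 =>
    obtain ⟨x', h3, h4⟩ := h1
    obtain ⟨y', h5, h6⟩ := h2
    exact ⟨_, mul_mem h3 h5, h4.mul h6⟩
  | inv x _ h1 =>
    obtain ⟨x', h3, h4⟩ := h1
    exact ⟨_, inv_mem h3, h4.inv⟩

theorem tf_eq_one (x y : Alb a b c) : tf x y = tf (adj (dia 1 1 1)) x * tf (adj (dia 1 1 1)) y -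
    tf (cross x y) (dia 1 1 1) := by
  simp [tf, adj, cross, dia]
  ring

variable [NeZero (2 : F)]

theorem Dl.unique {g g' g'' : Alb a b c ≃ₗ[F] Alb a b c} (h : Dl g g') (h' : Dl g g'') :
    g' = g'' := LinearEquiv.ext fun y => eq_of_tf fun z => by
  obtain ⟨w, rfl⟩ := g.surjective z
  rw [h.symm, h'.symm]

/-- The elements of `Inv` which fix the unit matrix preserve the trace form. -/
theorem dl_self {g : Alb a b c ≃ₗ[F] Alb a b c} (hg : g ∈ Inv a b c)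
    (h1 : g (dia 1 1 1) = dia 1 1 1) : Dl g g := fun x y => by
  rw [tf_eq_one, tf_eq_one x y, ← h1, tf_adj_inv hg, tf_adj_inv hg, tf_cross_inv hg, h1]

theorem Dl.adj {g g' : Alb a b c ≃ₗ[F] Alb a b c} (h : Dl g g') (hg : g ∈ Inv a b c)
    (x : Alb a b c) : adj (g x) = g' (adj x) := eq_of_tf fun z => by
  obtain ⟨w, rfl⟩ := g.surjective z
  rw [tf_adj_inv hg, h.symm]

theorem Dl.cross {g g' : Alb a b c ≃ₗ[F] Alb a b c} (h : Dl g g') (hg : g ∈ Inv a b c)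
    (x y : Alb a b c) : cross (g x) (g y) = g' (cross x y) := eq_of_tf fun z => by
  obtain ⟨w, rfl⟩ := g.surjective z
  rw [tf_cross_inv hg, h.symm]

theorem exists_dual (hsq : ∀ t : F, IsSquare t) {g : Alb a b c ≃ₗ[F] Alb a b c}
    (hg : g ∈ Inv a b c) : ∃ g' ∈ Inv a b c, Dl g g' := by
  obtain ⟨φ, h1, d, h2, h3, h4, h5, rfl⟩ := inv_eq hsq hg
  obtain ⟨φ', h6, h7⟩ := El_dual h1
  refine ⟨φ' * d, mul_mem (El_le h6) h2, h7.mul (dl_self h2 ?_)⟩
  have : (dia 1 1 1 : Alb a b c) = e1 + e2 + e3 := by ext1 <;> simp [dia, e1, e2, e3]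
  rw [this, map_add, map_add, h3, h4, h5]

/-- Transitivity on the opposite pairs. -/
theorem trans_opp (hsq : ∀ t : F, IsSquare t) {x y : Alb a b c} (hx : adj x = 0) (hy : adj y = 0)
    (h : tf x y = 1) : ∃ φ ∈ El a b c, ∃ φ' ∈ El a b c, Dl φ φ' ∧ φ e1 = x ∧ φ' e1 = y := by
  obtain ⟨φ, h1, h2⟩ := trans_sing hsq (fun h0 => by simp [h0] at h) hx
  obtain ⟨φ', h3, h4⟩ := El_dual h1
  obtain ⟨w, rfl⟩ := φ'.surjective y
  have hw : adj w = 0 := by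
    have := adj_inv_eq_zero (inv_mem (El_le h3)) hy
    rwa [← LinearEquiv.mul_apply, inv_mul_cancel] at this
  have h5 : w.d1 = 1 := by
    rw [← h2, h4] at h
    simpa [tf, e1] using h
  let ψ' := sl 4 (-w.x2) * sl 1 (-w.x3)
  let ψ := sl 5 (- -w.x2) * sl 0 (- -w.x3)
  have k1 : ψ' ∈ El a b c := mul_mem (sl_El _ _) (sl_El _ _)
  have k2 : ψ ∈ El a b c := mul_mem (sl_El _ _) (sl_El _ _)
  have k3 : Dl ψ' ψ := (dl4 _).mul (dl1 _)
  have k4 : ψ e1 = e1 := by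
    change sl 5 _ (sl 0 _ (dia 1 0 0)) = dia 1 0 0
    rw [(sl_e1 _ 1).1, (sl_e1 _ 1).2.2.2]
  have k5 : ψ' w = e1 := by
    have e : (ψ' w).d1 = 1 := h5
    have := sing1 (x := ψ' w) (e ▸ one_ne_zero) (by simp [ψ', sl_apply, sf, h5])
      (by simp [ψ', sl_apply, sf, h5]) (adj_inv_eq_zero (El_le k1) hw)
    rwa [e] at this
  refine ⟨φ * ψ⁻¹, mul_mem h1 (inv_mem k2), φ' * ψ'⁻¹, mul_mem h3 (inv_mem k1),
    h4.mul k3.symm.inv, ?_, ?_⟩
  · rw [LinearEquiv.mul_apply, ← h2]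
    congr 1
    nth_rewrite 1 [← k4]
    rw [← LinearEquiv.mul_apply, inv_mul_cancel]; rfl
  · rw [LinearEquiv.mul_apply, ← k5, ← LinearEquiv.mul_apply ψ'⁻¹, inv_mul_cancel]; rfl

end Vale.Agent.P011LG
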