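import Vale.Agent.P011LG.Slide

/-!
Gauss elimination by slides: transitivity on singular elements, frames, opposite pairs and on the
elements of norm one.
-/

namespace Vale.Agent.P011LG

open Vale.Agent.P011.D4 Vale.Agent.P011.D4.Oct Vale.Agent.P011.E6 Vale.Agent.P011.E6.Alb

variable {F : Type} [Field F] {a b c : Fˣ}

/-- The diagonal matrices. -/
def dia (r s t : F) : Alb a b c := ⟨r, s, t, 0, 0, 0⟩

theorem bil_one_one' : bil (1 : Oct a b c) 1 = 2 := by rw [bil_self, Oct.norm_one, mul_one]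

theorem cub_dia (r s t : F) : cub (dia r s t : Alb a b c) = r * s * t := by simp [cub, dia]

theorem dia_add (r s t r' s' t' : F) :
    (dia r s t : Alb a b c) + dia r' s' t' = dia (r + r') (s + s') (t + t') := by
  ext1 <;> simp [dia]

/-- The torus element `diag (t, t⁻¹, 1)`. -/
def h12 (t : F) : Alb a b c ≃ₗ[F] Alb a b c :=
  sl 0 (t • 1) * sl 1 (-t⁻¹ • 1) * sl 0 (t • 1) * sl 0 (-1) * sl 1 1 * sl 0 (-1)

/-- The torus element `diag (1, t, t⁻¹)`. -/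
def h23 (t : F) : Alb a b c ≃ₗ[F] Alb a b c :=
  sl 2 (t • 1) * sl 3 (-t⁻¹ • 1) * sl 2 (t • 1) * sl 2 (-1) * sl 3 1 * sl 2 (-1)

theorem h12_El (t : F) : h12 t ∈ El a b c := by
  unfold h12
  repeat first | exact sl_El _ _ | apply mul_mem

theorem h23_El (t : F) : h23 t ∈ El a b c := by
  unfold h23
  repeat first | exact sl_El _ _ | apply mul_mem

theorem h12_dia {t : F} (ht : t ≠ 0) (r s q : F) :
    h12 t (dia r s q : Alb a b c) = dia (t ^ 2 * r) (t⁻¹ ^ 2 * s) q := by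
  ext1 <;> simp only [h12, LinearEquiv.mul_apply, sl_apply, sf, dia, mul_zero, zero_mul, star_zero,
    add_zero, zero_add, bil_add_right, bil_smul_left, bil_smul_right, bil_neg_left, bil_neg_right,
    bil_one_one', bil_zero_right, Oct.norm_smul, Oct.norm_neg, Oct.norm_one]
  · field_simp
    ring
  · field_simp
    ring
  · match_scalars
    field_simp
    ring

theorem h23_dia {t : F} (ht : t ≠ 0) (r s q : F) :
    h23 t (dia r s q : Alb a b c) = dia r (t ^ 2 * s) (t⁻¹ ^ 2 * q) := by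
  ext1 <;> simp only [h23, LinearEquiv.mul_apply, sl_apply, sf, dia, mul_zero, zero_mul, star_zero,
    add_zero, zero_add, bil_add_right, bil_smul_left, bil_smul_right, bil_neg_left, bil_neg_right,
    bil_one_one', bil_zero_right, Oct.norm_smul, Oct.norm_neg, Oct.norm_one]
  · field_simp
    ring
  · field_simp
    ring
  · match_scalars
    field_simp
    ring

/-- The torus moves the diagonal entries. -/
theorem exists_torus (hsq : ∀ t : F, IsSquare t) {p q : F} (hp : p ≠ 0) (hq : q ≠ 0) :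
    ∃ φ ∈ El a b c, ∀ r s t, φ (dia r s t) = dia (p * r) (q * s) ((p * q)⁻¹ * t) := by
  obtain ⟨u, rfl⟩ := hsq p
  obtain ⟨v, rfl⟩ := hsq q
  have hu : u ≠ 0 := left_ne_zero_of_mul hp
  have hv : v ≠ 0 := left_ne_zero_of_mul hq
  refine ⟨h12 u * h23 (u * v), mul_mem (h12_El _) (h23_El _), fun r s t => ?_⟩
  rw [LinearEquiv.mul_apply, h23_dia (mul_ne_zero hu hv), h12_dia hu]
  congr 1 <;> field_simp

variable [NeZero (2 : F)]

theorem exists_ne {y : Oct a b c} {s : F} (h : y ≠ 0 ∨ s ≠ 0) :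
    ∃ u : Oct a b c, bil u y + norm u * s ≠ 0 := by
  by_contra h0
  push Not at h0
  have h1 : ∀ u : Oct a b c, bil u y = 0 ∧ norm u * s = 0 := fun u => by
    have e1 := h0 u
    have e2 := h0 (-u)
    rw [bil_neg_left, Oct.norm_neg] at e2
    exact ⟨mul_left_cancel₀ (NeZero.ne (2 : F)) (by linear_combination e1 - e2),
      mul_left_cancel₀ (NeZero.ne (2 : F)) (by linear_combination e1 + e2)⟩
  rcases h with h | h
  · exact h (eq_zero_of_bil fun u => by rw [bil_comm]; exact (h1 u).1)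
  · exact h (by simpa using (h1 1).2)

omit [NeZero (2 : F)] in
theorem sl_e1 (u : Oct a b c) (r : F) : sl 0 u (dia r 0 0) = dia r 0 0 ∧
    sl 2 u (dia r 0 0) = dia r 0 0 ∧ sl 3 u (dia r 0 0) = dia r 0 0 ∧
    sl 5 u (dia r 0 0) = dia r 0 0 := by
  refine ⟨?_, ?_, ?_, ?_⟩ <;> ext1 <;> simp [sl_apply, sf, dia]

omit [NeZero (2 : F)] in
theorem sl_e2 (u : Oct a b c) (r : F) : sl 2 u (dia 0 r 0) = dia 0 r 0 ∧
    sl 5 u (dia 0 r 0) = dia 0 r 0 := by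
  refine ⟨?_, ?_⟩ <;> ext1 <;> simp [sl_apply, sf, dia]

/-- The second diagonal entry is made nonzero by slides which fix the first row. -/
theorem exists_d2 {x : Alb a b c} (h : x.d2 ≠ 0 ∨ x.d3 ≠ 0 ∨ x.x1 ≠ 0) :
    ∃ u, (sl 2 u x).d2 ≠ 0 := by
  by_cases h2 : x.d2 = 0
  · obtain ⟨u, hu⟩ := exists_ne (y := x.x1) (s := x.d3) (by tauto)
    exact ⟨u, by simpa [sl_apply, sf, h2] using hu⟩
  · exact ⟨0, by rwa [sl_zero]⟩

theorem exists_d1 {x : Alb a b c} (h : x ≠ 0) : ∃ φ ∈ El a b c, (φ x).d1 ≠ 0 := by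
  have k1 : ∀ y : Alb a b c, y.x3 ≠ 0 ∨ y.d2 ≠ 0 → ∃ φ ∈ El a b c, (φ y).d1 ≠ 0 := by
    intro y hy
    by_cases h1 : y.d1 = 0
    · obtain ⟨u, hu⟩ := exists_ne hy
      exact ⟨sl 0 u, sl_El _ _, by simpa [sl_apply, sf, h1] using hu⟩
    · exact ⟨1, one_mem _, h1⟩
  by_cases h1 : x.d1 = 0
  · by_cases h2 : x.d2 ≠ 0 ∨ x.d3 ≠ 0 ∨ x.x1 ≠ 0
    · obtain ⟨u, hu⟩ := exists_d2 h2
      obtain ⟨φ, h3, h4⟩ := k1 _ (Or.inr hu)
      exact ⟨φ * sl 2 u, mul_mem h3 (sl_El _ _), h4⟩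
    · push Not at h2
      by_cases h3 : x.x3 = 0
      · have h4 : x.x2 ≠ 0 := fun h4 => h (Alb.ext h1 h2.1 h2.2.1 h2.2.2 h4 h3)
        obtain ⟨u, hu⟩ := exists_ne (s := x.d3) (Or.inl h4)
        exact ⟨sl 5 u, sl_El _ _, by simpa [sl_apply, sf, h1] using hu⟩
      · exact k1 x (Or.inl h3)
  · exact ⟨1, one_mem _, h1⟩

omit [NeZero (2 : F)] in
theorem clear1 {x : Alb a b c} (h : x.d1 ≠ 0) : ∃ φ ∈ El a b c,
    (φ x).d1 = x.d1 ∧ (φ x).x2 = 0 ∧ (φ x).x3 = 0 := by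
  refine ⟨sl 4 (-x.d1⁻¹ • x.x2) * sl 1 (-x.d1⁻¹ • x.x3), mul_mem (sl_El _ _) (sl_El _ _), rfl,
    ?_, ?_⟩ <;> simp [sl_apply, sf, smul_smul, h]

omit [NeZero (2 : F)] in
theorem sing1 {x : Alb a b c} (h : x.d1 ≠ 0) (h2 : x.x2 = 0) (h3 : x.x3 = 0) (hx : adj x = 0) :
    x = dia x.d1 0 0 := by
  have e2 := congrArg Alb.d2 hx
  have e3 := congrArg Alb.d3 hx
  have e1 := congrArg Alb.x1 hx
  simp [adj, h, h2, h3] at e1 e2 e3
  exact Alb.ext rfl e3 e2 e1 h2 h3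

omit [NeZero (2 : F)] in
theorem sing2 {x : Alb a b c} (h : x.d2 ≠ 0) (h1 : x.x1 = 0) (h3 : x.x3 = 0) (hx : adj x = 0) :
    x = dia 0 x.d2 0 := by
  have e1 := congrArg Alb.d1 hx
  have e3 := congrArg Alb.d3 hx
  have e2 := congrArg Alb.x2 hx
  simp [adj, h, h1, h3] at e1 e2 e3
  exact Alb.ext e3 rfl e1 h1 e2 h3

omit [NeZero (2 : F)] in
theorem sing3 {x : Alb a b c} (h : x.d3 ≠ 0) (h1 : x.x1 = 0) (h2 : x.x2 = 0) (hx : adj x = 0) :
    x = dia 0 0 x.d3 := by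
  have e1 := congrArg Alb.d1 hx
  have e2 := congrArg Alb.d2 hx
  have e3 := congrArg Alb.x3 hx
  simp [adj, h, h1, h2] at e1 e2 e3
  exact Alb.ext e2 e1 rfl h1 h2 e3

/-- A singular element is moved to the first diagonal line. -/
theorem sing_dia {x : Alb a b c} (h : x ≠ 0) (hx : adj x = 0) :
    ∃ φ ∈ El a b c, ∃ r, r ≠ 0 ∧ φ x = dia r 0 0 := by
  obtain ⟨φ, h1, h2⟩ := exists_d1 h
  obtain ⟨ψ, h3, h4, h5, h6⟩ := clear1 h2
  refine ⟨ψ * φ, mul_mem h3 h1, _, h4 ▸ h2, ?_⟩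
  exact sing1 (h4 ▸ h2) h5 h6 (adj_inv_eq_zero (El_le h3) (adj_inv_eq_zero (El_le h1) hx))

/-- Two singular elements with nonzero cross product. -/
theorem pair_dia {x y : Alb a b c} (hx : adj x = 0) (hy : adj y = 0) (h : cross x y ≠ 0) :
    ∃ φ ∈ El a b c, ∃ r s, r ≠ 0 ∧ s ≠ 0 ∧ φ x = dia r 0 0 ∧ φ y = dia 0 s 0 := by
  obtain ⟨φ, h1, r, hr, h2⟩ := sing_dia (fun h0 => h (by rw [h0, cross_zero_left])) hx
  have h3 := cross_inv_ne_zero (El_le h1) h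
  rw [h2] at h3
  obtain ⟨u, hu⟩ := exists_d2 (x := φ y) (by
    by_contra h4
    push Not at h4
    exact h3 (by ext1 <;> simp [cross, dia, h4.1, h4.2.1, h4.2.2]))
  set z := sl 2 u (φ y) with hz
  let w := sl 3 (-z.d2⁻¹ • z.x1) z
  let ψ := sl 0 (-w.d2⁻¹ • w.x3) * sl 3 (-z.d2⁻¹ • z.x1) * sl 2 u * φ
  have hψ : ψ ∈ El a b c := mul_mem (mul_mem (mul_mem (sl_El _ _) (sl_El _ _)) (sl_El _ _)) h1
  refine ⟨ψ, hψ, r, z.d2, hr, hu, ?_, ?_⟩
  · simp only [ψ, LinearEquiv.mul_apply, h2, (sl_e1 _ r).1, (sl_e1 _ r).2.1, (sl_e1 _ r).2.2.1]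
  · have e : ψ y = sl 0 (-w.d2⁻¹ • w.x3) w := rfl
    have e2 : w.d2 = z.d2 := rfl
    refine sing2 (x := ψ y) hu ?_ ?_ (adj_inv_eq_zero (El_le hψ) hy)
    · rw [e]
      change z.x1 + z.d2 • (-z.d2⁻¹ • z.x1) = 0
      simp [smul_smul, hu]
    · rw [e]
      change w.x3 + w.d2 • (-w.d2⁻¹ • w.x3) = 0
      simp [smul_smul, e2, hu]

/-- A frame is moved to a diagonal frame. -/
theorem frame_dia {x y z : Alb a b c} (hx : adj x = 0) (hy : adj y = 0) (hz : adj z = 0)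
    (h : cub (x + y + z) ≠ 0) : ∃ φ ∈ El a b c, ∃ r s t, r * s * t = cub (x + y + z) ∧
      φ x = dia r 0 0 ∧ φ y = dia 0 s 0 ∧ φ z = dia 0 0 t := by
  have h0 := cub_frame hx hy hz
  obtain ⟨φ, h1, r, s, hr, hs, h2, h3⟩ := pair_dia hx hy (fun h1 => h (by
    rw [h0, h1, tf_zero_left]))
  have h4 : r * s * (φ z).d3 = cub (x + y + z) := by
    rw [h0, ← tf_cross_inv (El_le h1), h2, h3]
    simp [tf, cross, dia]
  have h5 : (φ z).d3 ≠ 0 := fun h5 => h (by rw [← h4, h5, mul_zero])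
  set w := φ z with hw
  let ψ := sl 5 (-w.d3⁻¹ • w.x2) * sl 2 (-w.d3⁻¹ • w.x1) * φ
  have hψ : ψ ∈ El a b c := mul_mem (mul_mem (sl_El _ _) (sl_El _ _)) h1
  refine ⟨ψ, hψ, r, s, w.d3, h4, ?_, ?_, ?_⟩
  · simp only [ψ, LinearEquiv.mul_apply, h2, (sl_e1 _ r).2.1, (sl_e1 _ r).2.2.2]
  · simp only [ψ, LinearEquiv.mul_apply, h3, (sl_e2 _ s).1, (sl_e2 _ s).2]
  · refine sing3 (x := ψ z) h5 ?_ ?_ (adj_inv_eq_zero (El_le hψ) hz)
    · change w.x1 + w.d3 • (-w.d3⁻¹ • w.x1) = 0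
      simp [smul_smul, h5]
    · change w.x2 + w.d3 • (-w.d3⁻¹ • w.x2) = 0
      simp [smul_smul, h5]

/-- Every element is moved to a diagonal matrix. -/
theorem all_dia (x : Alb a b c) : ∃ φ ∈ El a b c, ∃ r s t, φ x = dia r s t := by
  by_cases h : x = 0
  · exact ⟨1, one_mem _, 0, 0, 0, h⟩
  obtain ⟨φ, h1, h2⟩ := exists_d1 h
  obtain ⟨ψ, h3, -, h5, h6⟩ := clear1 h2
  set y := ψ (φ x) with hy
  by_cases h7 : y.d2 ≠ 0 ∨ y.d3 ≠ 0 ∨ y.x1 ≠ 0
  · obtain ⟨u, hu⟩ := exists_d2 h7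
    set z := sl 2 u y with hz
    refine ⟨sl 3 (-z.d2⁻¹ • z.x1) * sl 2 u * ψ * φ,
      mul_mem (mul_mem (mul_mem (sl_El _ _) (sl_El _ _)) h3) h1, _, _, _,
      Alb.ext rfl rfl rfl ?_ ?_ ?_⟩
    · change z.x1 + z.d2 • (-z.d2⁻¹ • z.x1) = 0
      simp [smul_smul, hu]
    · change y.x2 + star ((y.x3 + star (u * y.x2)) * _) = 0
      simp [h5, h6]
    · change y.x3 + star (u * y.x2) = 0
      simp [h5, h6]
  · push Not at h7
    exact ⟨ψ * φ, mul_mem h3 h1, _, _, _, Alb.ext rfl rfl rfl h7.2.2 h5 h6⟩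

section sq

variable (hsq : ∀ t : F, IsSquare t)
include hsq

/-- Transitivity on the nonzero singular elements. -/
theorem trans_sing {x : Alb a b c} (h : x ≠ 0) (hx : adj x = 0) : ∃ φ ∈ El a b c, φ e1 = x := by
  obtain ⟨φ, h1, r, hr, h2⟩ := sing_dia h hx
  obtain ⟨ψ, h3, h4⟩ := exists_torus (a := a) (b := b) (c := c) hsq hr one_ne_zero
  refine ⟨φ⁻¹ * ψ, mul_mem (inv_mem h1) h3, φ.injective ?_⟩
  rw [← LinearEquiv.mul_apply, mul_inv_cancel_left, h2]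
  exact (h4 1 0 0).trans (by simp)

/-- Transitivity on the pairs of singular elements with nonzero cross product. -/
theorem trans_pair {x y : Alb a b c} (hx : adj x = 0) (hy : adj y = 0) (h : cross x y ≠ 0) :
    ∃ φ ∈ El a b c, φ e1 = x ∧ φ e2 = y := by
  obtain ⟨φ, h1, r, s, hr, hs, h2, h2'⟩ := pair_dia hx hy h
  obtain ⟨ψ, h3, h4⟩ := exists_torus (a := a) (b := b) (c := c) hsq hr hs
  refine ⟨φ⁻¹ * ψ, mul_mem (inv_mem h1) h3, φ.injective ?_, φ.injective ?_⟩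
  · rw [← LinearEquiv.mul_apply, mul_inv_cancel_left, h2]
    exact (h4 1 0 0).trans (by simp)
  · rw [← LinearEquiv.mul_apply, mul_inv_cancel_left, h2']
    exact (h4 0 1 0).trans (by simp)

/-- Transitivity on frames. -/
theorem trans_frame {x y z : Alb a b c} (hx : adj x = 0) (hy : adj y = 0) (hz : adj z = 0)
    (h : cub (x + y + z) = 1) : ∃ φ ∈ El a b c, φ e1 = x ∧ φ e2 = y ∧ φ e3 = z := by
  obtain ⟨φ, h1, r, s, t, h0, h2, h2', h2''⟩ := frame_dia hx hy hz (h ▸ one_ne_zero)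
  rw [h] at h0
  have hrs : r * s ≠ 0 := left_ne_zero_of_mul_eq_one h0
  obtain ⟨ψ, h3, h4⟩ := exists_torus (a := a) (b := b) (c := c) hsq (left_ne_zero_of_mul hrs)
    (right_ne_zero_of_mul hrs)
  refine ⟨φ⁻¹ * ψ, mul_mem (inv_mem h1) h3, φ.injective ?_, φ.injective ?_, φ.injective ?_⟩
  · rw [← LinearEquiv.mul_apply, mul_inv_cancel_left, h2]
    exact (h4 1 0 0).trans (by simp)
  · rw [← LinearEquiv.mul_apply, mul_inv_cancel_left, h2']
    exact (h4 0 1 0).trans (by simp)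
  · rw [← LinearEquiv.mul_apply, mul_inv_cancel_left, h2'', eq_inv_of_mul_eq_one_right h0]
    exact (h4 0 0 1).trans (by simp)

/-- Transitivity on the elements of a given nonzero norm. -/
theorem trans_norm {x : Alb a b c} (h : cub x ≠ 0) : ∃ φ ∈ El a b c, φ (dia 1 1 (cub x)) = x := by
  obtain ⟨φ, h1, r, s, t, h2⟩ := all_dia x
  have h0 : cub x = r * s * t := by rw [← cub_dia (a := a) (b := b) (c := c), ← h2, El_le h1]
  have hrs : r * s ≠ 0 := left_ne_zero_of_mul (h0 ▸ h)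
  obtain ⟨ψ, h3, h4⟩ := exists_torus (a := a) (b := b) (c := c) hsq (left_ne_zero_of_mul hrs)
    (right_ne_zero_of_mul hrs)
  refine ⟨φ⁻¹ * ψ, mul_mem (inv_mem h1) h3, φ.injective ?_⟩
  rw [← LinearEquiv.mul_apply, mul_inv_cancel_left, h2, h4, h0, mul_one, mul_one,
    inv_mul_cancel_left₀ hrs]

/-- Every element of `Inv` is a product of slides and of an element which fixes the frame. -/
theorem inv_eq {g : Alb a b c ≃ₗ[F] Alb a b c} (hg : g ∈ Inv a b c) : ∃ φ ∈ El a b c,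
    ∃ d ∈ Inv a b c, d e1 = e1 ∧ d e2 = e2 ∧ d e3 = e3 ∧ g = φ * d := by
  obtain ⟨φ, h1, h2, h3, h4⟩ := trans_frame hsq (x := g e1) (y := g e2) (z := g e3)
    (adj_inv_eq_zero hg (by ext1 <;> simp [adj, e1]))
    (adj_inv_eq_zero hg (by ext1 <;> simp [adj, e2]))
    (adj_inv_eq_zero hg (by ext1 <;> simp [adj, e3]))
    (by rw [← map_add, ← map_add, hg]; simp [cub, e1, e2, e3])
  refine ⟨φ, h1, φ⁻¹ * g, mul_mem (inv_mem (El_le h1)) hg, φ.injective ?_, φ.injective ?_,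
    φ.injective ?_, (mul_inv_cancel_left _ _).symm⟩ <;>
    rw [← LinearEquiv.mul_apply, mul_inv_cancel_left]
  exacts [h2.symm, h3.symm, h4.symm]

end sq

end Vale.Agent.P011LG
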